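import Crest.Agent.R12.Iface
import Crest.Agent.R12.Base.BV
import Crest.Agent.R12.Base.Div
import Crest.Agent.R12.Base.Cube
import Crest.Agent.R12.Base.LatA
import Crest.Agent.R12.SW.Main

/-! Row 12, block RA (owner helper8): Ramaré's trick, `StSW → StRam`. -/

set_option autoImplicit false

namespace Crest.Agent.R12

open Crest.Agent.R17 Filter

theorem stSW : StSW := SW.stSW

open Classical in
/-- the primary prime factors of norm larger than `w` -/
noncomputable def raP (w : ℝ) (n : O) : Finset O := (pfs n).filter fun p => w < nm p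

theorem ra_two_pow {h : O} (hh : h ≠ 0) : (2 : ℝ) ^ (pfs h).card ≤ nm h := by
  refine le_trans ?_ (nm_le_of_dvd (rad_dvd h) hh)
  rw [rad, nm_prod, ← Finset.prod_const]
  exact Finset.prod_le_prod (fun _ _ => zero_le_two) fun p hp => two_le_nm (pra_of_mem_pfs hp).1

theorem ra_nm_le {n : O} (hn : PSq n) {w : ℝ} (h : (raP w n).card = 0) :
    nm n ≤ w ^ (pfs n).card := by
  classical
  conv_lhs => rw [← hn.1.rad_eq hn.2, rad, nm_prod]
  rw [← Finset.prod_const]
  refine Finset.prod_le_prod (fun p _ => nm_nonneg p) fun p hp => not_lt.1 fun a => ?_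
  exact Finset.notMem_empty p (Finset.card_eq_zero.1 h ▸ Finset.mem_filter.2 ⟨hp, a⟩ : p ∈ (∅ : Finset O))

open Classical in
theorem ra_id {F : O → ℂ} (hF : ∀ n, F n ≠ 0 → PSq n) (w x : ℝ) :
    ∑ n ∈ ball x, F n = ∑ n ∈ pball x, ((if (raP w n).card = 0 then F n else 0) +
      (1 + (raP w n).card : ℂ)⁻¹ * ∑ q ∈ ball (x / nm n),
        if Prime q ∧ Prim q ∧ w < nm q then F (q * n) else 0) := by
  have e1 : ∑ n ∈ ball x, F n = ∑ n ∈ pball x, ((if (raP w n).card = 0 then F n else 0) +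
      ∑ _q ∈ raP w n, ((raP w n).card : ℂ)⁻¹ * F n) := by
    rw [pball, Finset.sum_filter]
    refine Finset.sum_congr rfl fun n _ => ?_
    rw [Finset.sum_const, nsmul_eq_mul]
    split_ifs with h1 h2
    · simp [h2]
    · rw [zero_add, mul_inv_cancel_left₀ (Nat.cast_ne_zero.2 h2)]
    · exact by_contra fun h => h1 (hF n h).1
  rw [e1, Finset.sum_add_distrib, Finset.sum_add_distrib]
  congr 1
  simp only [← Finset.sum_filter, Finset.mul_sum]
  rw [Finset.sum_sigma', Finset.sum_sigma']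
  symm
  refine Finset.sum_bij_ne_zero (fun a _ _ => ⟨a.2 * a.1, a.2⟩) ?_ ?_ ?_ ?_
  · rintro ⟨n, q⟩ h -
    simp only [Finset.mem_sigma, Finset.mem_filter, mem_pball, mem_ball, raP] at h ⊢
    obtain ⟨⟨-, h2⟩, h3, h4, h5, h6⟩ := h
    rw [le_div_iff₀ (nm_pos h2.ne_zero), ← nm_mul] at h3
    exact ⟨⟨h3, h5.mul h2⟩, (mem_pfs (h5.mul h2).ne_zero).2 ⟨h4, h5, dvd_mul_right _ _⟩, h6⟩
  · rintro ⟨n, q⟩ h - ⟨n', q'⟩ - - e
    simp only [Finset.mem_sigma, Finset.mem_filter] at h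
    obtain ⟨e1, e2⟩ := Sigma.mk.inj_iff.1 e
    obtain rfl : q = q' := eq_of_heq e2
    obtain rfl : n = n' := mul_left_cancel₀ h.2.2.1.ne_zero e1
    rfl
  · rintro ⟨n, q⟩ h h0
    simp only [Finset.mem_sigma, Finset.mem_filter, mem_pball, raP] at h
    obtain ⟨⟨h1, h2⟩, h3, h4⟩ := h
    obtain ⟨a1, a2, a3⟩ := pra_of_mem_pfs h3
    obtain ⟨n', b1, rfl⟩ := a2.exists_mul h2 a3
    have b2 := nm_pos b1.ne_zero
    refine ⟨⟨n', q⟩, ?_, mul_ne_zero (inv_ne_zero ?_) (right_ne_zero_of_mul h0), rfl⟩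
    · simp only [Finset.mem_sigma, Finset.mem_filter, mem_pball, mem_ball]
      refine ⟨⟨(nm_le_of_dvd (dvd_mul_left _ _) h2.ne_zero).trans h1, b1⟩, ?_, a1, a2, h4⟩
      rwa [le_div_iff₀ b2, ← nm_mul]
    · exact_mod_cast (by omega : 1 + (raP w n').card ≠ 0)
  · rintro ⟨n, q⟩ h h0
    simp only [Finset.mem_sigma, Finset.mem_filter, mem_pball] at h
    obtain ⟨⟨-, h2⟩, -, h4, h5, h6⟩ := h
    have c := ((psq_mul_iff h5 h2).1 (hF _ (right_ne_zero_of_mul h0))).2.2
    have e : (raP w (q * n)).card = 1 + (raP w n).card := by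
      rw [raP, pfs_mul h5.ne_zero h2.ne_zero, Finset.filter_union, Finset.card_union_of_disjoint
        (Finset.disjoint_filter_filter (pfs_disjoint c)), pfs_prime h4 h5, Finset.filter_singleton,
        if_pos h6, Finset.card_singleton, raP]
    simp only [e, Nat.cast_add, Nat.cast_one]

open Classical in
theorem ra_inner {ψ : ℕ → ℂ} {K w E X : ℝ} (hψ : BV ψ K) {u : O → ℂ} (hu : ∀ q, ‖u q‖ ≤ 1) {h : O}
    (hh : h ≠ 0) (hw : 0 ≤ w) (hX : w ≤ X) (hE0 : 0 ≤ E)
    (hE : ∀ y, w ≤ y → ‖∑ p ∈ qball y, u p‖ ≤ E * y) :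
    ‖∑ q ∈ ball X, if Prime q ∧ Prim q ∧ w < nm q then
      (if q ∣ h then 0 else u q * ψ (nN q)) else 0‖ ≤ K * (4 * E * X + (pfs h).card) := by
  have k1 := abel_ball hψ (u := fun q => if Prime q ∧ Prim q ∧ w < nm q then u q else 0)
    (M := 2 * E * X) (X := X) fun y hy => by
      rcases le_total y w with a | a
      · rw [Finset.sum_eq_zero fun q hq => if_neg fun b => by linarith [mem_ball.1 hq, b.2.2],
          norm_zero]
        exact mul_nonneg (by positivity) (hw.trans hX)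
      have e : qball y \ qball w = (ball y).filter fun q => Prime q ∧ Prim q ∧ w < nm q := by
        ext q
        simp only [Finset.mem_sdiff, mem_qball, Finset.mem_filter, mem_ball, ← not_le]
        tauto
      rw [← Finset.sum_filter, ← e, Finset.sum_sdiff_eq_sub fun q hq =>
        mem_qball.2 ⟨(mem_qball.1 hq).1.trans a, (mem_qball.1 hq).2⟩]
      refine (norm_sub_le_of_le (hE y a) (hE w le_rfl)).trans ?_
      nlinarith
  have k2 : ‖∑ q ∈ ball X, if q ∈ pfs h ∧ w < nm q then u q * ψ (nN q) else 0‖ ≤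
      (pfs h).card * K := by
    rw [← Finset.sum_filter]
    refine (norm_sum_le_of_le _ (n := fun _ => K) fun q _ => ?_).trans ?_
    · rw [norm_mul]
      exact (mul_le_of_le_one_left (norm_nonneg _) (hu q)).trans (hψ.norm_le _)
    · rw [Finset.sum_const, nsmul_eq_mul]
      exact mul_le_mul_of_nonneg_right (Nat.cast_le.2 (Finset.card_le_card fun q hq =>
        (Finset.mem_filter.1 hq).2.1)) hψ.nonneg
  refine le_trans (le_of_eq ?_) ((norm_sub_le_of_le k1 k2).trans (le_of_eq (by ring)))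
  rw [← Finset.sum_sub_distrib]
  refine congrArg _ (Finset.sum_congr rfl fun q _ => ?_)
  simp only [mem_pfs hh]
  by_cases a : Prime q ∧ Prim q ∧ w < nm q <;> by_cases b : q ∣ h <;> simp [a, b]
  tauto

theorem ra_core {j : ℤ} {k : ℕ} {β : O → ℂ} {K w E T Ω x : ℝ} {l r m : O}
    (hS : ∀ b, β b ≠ 0 → PSq b) (hD : Dv k β) (hV : BVS K k β) (hK : 0 ≤ K) (hl : Prim l) (hm : m ≠ 0)
    (hw : 0 < w) (hE0 : 0 ≤ E) (hT0 : 0 < T) (hΩ0 : 0 ≤ Ω)
    (hE : ∀ y, w ≤ y → ‖∑ p ∈ qball y, cb r p * al p ^ j‖ ≤ E * y)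
    (hT : ∀ n, β (l * n) ≠ 0 → nm n ≤ w ^ (pfs n).card → T ≤ 2 ^ (pfs n).card)
    (hΩ : ∀ n, Prim n → nm n ≤ x → ((pfs (l * n * m)).card : ℝ) ≤ Ω) :
    ‖∑ n ∈ ball x, β (l * n) * al (l * n) ^ j * cb (r * m ^ 3) n‖ ≤
      dn l ^ k * x * (T⁻¹ + K * (4 * E + Ω / w)) * ∑ n ∈ pball x, dn n ^ (k + 1) / nm n := by
  classical
  have hF : ∀ n, β (l * n) * al (l * n) ^ j * cb (r * m ^ 3) n ≠ 0 → PSq n := fun n h =>
    (hS _ (left_ne_zero_of_mul (left_ne_zero_of_mul h))).of_mul_left hl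
  have hc : ∀ (a n s : O), ‖al a ^ j * cb s n‖ ≤ 1 := fun a n s => by
    rw [norm_mul]
    exact mul_le_one₀ (bla_norm_le a j) (norm_nonneg _) (norm_cb_le _ _)
  rw [ra_id hF w x, Finset.mul_sum]
  refine norm_sum_le_of_le _ fun n hn => ?_
  obtain ⟨h1, h2⟩ := mem_pball.1 hn
  have n0 := nm_pos h2.ne_zero
  have d1 := one_le_dn h2.ne_zero
  have d0 := dn_nonneg l
  have d2 : dn (l * n) ^ k ≤ dn l ^ k * dn n ^ k := by
    rw [← mul_pow]
    exact pow_le_pow_left₀ (dn_nonneg _) (dn_mul_le _ _) k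
  have hx : 1 ≤ x / nm n := (one_le_div n0).2 h1
  have k1 : ‖if (raP w n).card = 0 then β (l * n) * al (l * n) ^ j * cb (r * m ^ 3) n else 0‖ ≤
      dn l ^ k * dn n ^ (k + 1) * (x / nm n) * T⁻¹ := by
    by_cases a : (raP w n).card = 0 ∧ β (l * n) ≠ 0
    · have b := (hS _ a.2).of_mul_left hl
      have c := hT n a.2 (ra_nm_le b a.1)
      rw [← dn_sqfree b] at c
      rw [if_pos a.1, mul_assoc (β _), norm_mul, ← div_eq_mul_inv, le_div_iff₀ hT0, pow_succ (dn n),
        ← mul_assoc (dn l ^ k)]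
      refine le_trans ?_ (le_mul_of_one_le_right (by positivity) hx)
      exact mul_le_mul ((mul_le_of_le_one_right (norm_nonneg _) (hc _ _ _)).trans ((hD _).trans d2))
        c hT0.le (by positivity)
    · rw [norm_eq_zero.2 (by by_cases b : (raP w n).card = 0 <;> simp_all)]
      positivity
  have k2 : ‖∑ q ∈ ball (x / nm n), if Prime q ∧ Prim q ∧ w < nm q then
      β (l * (q * n)) * al (l * (q * n)) ^ j * cb (r * m ^ 3) (q * n) else 0‖ ≤
      dn l ^ k * dn n ^ (k + 1) * (x / nm n) * (K * (4 * E + Ω / w)) := by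
    by_cases a : w ≤ x / nm n ∧ PSq (l * n)
    swap
    · rw [Finset.sum_eq_zero fun q hq => ?_, norm_zero]
      · positivity
      split_ifs with b
      · exact by_contra fun c => a ⟨b.2.2.le.trans (mem_ball.1 hq), PSq.of_mul_left b.2.1
          (mul_left_comm l q n ▸ hS _ (left_ne_zero_of_mul (left_ne_zero_of_mul c)))⟩
      · rfl
    obtain ⟨ψ, b1, b2⟩ := hV _ a.2
    have key := ra_inner b1 (u := fun q => cb r q * al q ^ j) (fun q => mul_comm (al q ^ j) _ ▸ hc q q r)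
      (mul_ne_zero a.2.ne_zero hm) hw.le a.1 hE0 hE
    have e : ∀ q ∈ ball (x / nm n), (if Prime q ∧ Prim q ∧ w < nm q then
        β (l * (q * n)) * al (l * (q * n)) ^ j * cb (r * m ^ 3) (q * n) else 0) =
        al (l * n) ^ j * cb (r * m ^ 3) n * if Prime q ∧ Prim q ∧ w < nm q then
          (if q ∣ l * n * m then 0 else cb r q * al q ^ j * ψ (nN q)) else 0 := fun q _ => by
      by_cases b : Prime q ∧ Prim q ∧ w < nm q
      swap
      · rw [if_neg b, if_neg b, mul_zero]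
      rw [if_pos b, if_pos b, mul_left_comm l, cb_mul_right, cb_mul_cube r m b.2.1, al_mul, mul_zpow]
      simp only [b.1.coprime_iff_not_dvd, b.1.dvd_mul (a := l * n)]
      by_cases c1 : q ∣ l * n
      · have : β (q * (l * n)) = 0 := by_contra fun c => b.1.coprime_iff_not_dvd.1
          ((psq_mul_iff b.2.1 a.2.1).1 (hS _ c)).2.2 c1
        simp [this, c1]
      by_cases c2 : q ∣ m
      · simp [c2]
      rw [b2 q b.1 b.2.1 c1, if_pos c2, if_neg (not_or.2 ⟨c1, c2⟩)]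
      ring
    rw [Finset.sum_congr rfl e, ← Finset.mul_sum, norm_mul]
    refine (mul_le_of_le_one_left (norm_nonneg _) (hc _ _ _)).trans (key.trans ?_)
    have c1 : ((pfs (l * n * m)).card : ℝ) ≤ Ω / w * (x / nm n) := (hΩ n h2 h1).trans (by
      rw [div_mul_eq_mul_div, le_div_iff₀ hw]
      exact mul_le_mul_of_nonneg_left a.1 hΩ0)
    have c2 : dn (l * n) ^ k ≤ dn l ^ k * dn n ^ (k + 1) :=
      d2.trans (mul_le_mul_of_nonneg_left (pow_le_pow_right₀ d1 k.le_succ) (by positivity))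
    calc _ ≤ K * (dn l ^ k * dn n ^ (k + 1)) * (4 * E * (x / nm n) + Ω / w * (x / nm n)) := by gcongr
      _ = _ := by ring
  refine (norm_add_le_of_le k1 (le_trans ?_ k2)).trans (le_of_eq (by ring))
  rw [norm_mul]
  refine mul_le_of_le_one_left (norm_nonneg _) ?_
  rw [norm_inv]
  refine inv_le_one_of_one_le₀ ?_
  exact_mod_cast (by omega : 1 ≤ 1 + (raP w n).card)

theorem ra_ev (G A : ℝ) {c θ : ℝ} (hc : 0 < c) (hθ : 0 < θ) :
    ∀ᶠ t : ℝ in atTop, G * t ^ A ≤ Real.exp (c * t ^ θ) := by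
  have h := ((tendsto_rpow_mul_exp_neg_mul_atTop_nhds_zero (A / θ) c hc).comp
    (tendsto_rpow_atTop hθ)).const_mul G
  rw [mul_zero] at h
  filter_upwards [h.eventually_le_const one_pos, eventually_gt_atTop 0] with t h1 h2
  rw [Function.comp_apply, ← Real.rpow_mul h2.le, mul_div_cancel₀ _ hθ.ne', neg_mul, Real.exp_neg,
    ← mul_assoc, mul_inv_le_iff₀ (Real.exp_pos _), one_mul] at h1
  exact h1

theorem stRam (h : StSW) : StRam := by
  intro j k C₁ C₂
  obtain ⟨θ, c, C, hθ, hc, hC⟩ := h j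
  obtain ⟨C₃, D, hC₃, hD0, h3⟩ := sum_dn_pow_div_le (k + 1)
  obtain ⟨C₄, hC₄, h4⟩ := dn_pow_le k one_pos
  obtain ⟨G, hG⟩ : ∃ G, G = 6 * C₃ * C₄ * 2 ^ D := ⟨_, rfl⟩
  have hθ' := half_pos hθ
  obtain ⟨t₀, ht₀⟩ := eventually_atTop.1
    ((ra_ev G (C₂ + C₂ + D) (c := 1 / 8) (θ := 1 / 2) (by norm_num) (by norm_num)).and
    ((ra_ev (G * (4 * |C|)) (C₂ + C₂ + D + C₁) hc hθ').and
    ((ra_ev (G * 6) (C₂ + C₂ + D + C₁ + 1) (θ := 1 / 2) one_pos (by norm_num)).and
    ((ra_ev 1 C₂ (c := 1 / 20) (by norm_num) one_pos).and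
    ((ra_ev 1 C₂ hc hθ').and (eventually_ge_atTop 1))))))
  refine ⟨Real.exp t₀, fun Y B β hY hB1 hB2 hS hD hV l r m x hl hlL hr hr' hrL hm hmY => ?_⟩
  have hY0 : 0 < Y := (Real.exp_pos _).trans_le hY
  obtain ⟨c1, c2, c3, c4, c5, c6⟩ := ht₀ _ ((Real.le_log_iff_exp_le hY0).2 hY)
  clear ht₀
  obtain ⟨t, rfl⟩ : ∃ t, Y = Real.exp t := ⟨_, (Real.exp_log hY0).symm⟩
  rw [Real.log_exp] at *
  have t0 : 0 < t := by linarith
  rw [← Real.exp_mul] at hB1
  simp only [Real.rpow_add t0, Real.rpow_one, one_mul] at c1 c2 c3 c4 c5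
  have s1 : 1 ≤ t ^ (1 / 2 : ℝ) := Real.one_le_rpow c6 (by norm_num)
  have s2 : t ^ (1 / 2 : ℝ) * t ^ (1 / 2 : ℝ) = t := by rw [← Real.rpow_add t0]; norm_num
  have s3 : (t ^ (1 / 2 : ℝ)) ^ θ = t ^ (θ / 2) := by rw [← Real.rpow_mul t0.le]; congr 1; ring
  have e2 : 2 ≤ Real.exp t := by linarith [Real.add_one_le_exp t]
  have hL := Real.rpow_pos_of_pos t0 C₂
  have hK := Real.rpow_pos_of_pos t0 C₁
  have hP := Real.rpow_pos_of_pos t0 D
  have hB0 := (Real.exp_pos _).trans_le hB1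
  have l2 := Real.log_two_gt_d9
  have h5 := h3 (2 * Real.exp t) (by linarith)
  have h6 : Real.log (2 * Real.exp t) ^ D ≤ 2 ^ D * t ^ D := by
    rw [← Real.mul_rpow zero_le_two t0.le, Real.log_mul two_ne_zero hY0.ne', Real.log_exp]
    exact Real.rpow_le_rpow (by linarith) (by linarith [Real.log_two_lt_d9]) hD0
  generalize t ^ (1 / 2 : ℝ) = s, t ^ C₂ = L, t ^ C₁ = K, t ^ D = P at *
  have e0 : ∑ n ∈ ball x, β (l * n) * al (l * n) ^ j * cb (r * m ^ 3) n =
      ∑ n ∈ ball (min x (2 * B)), β (l * n) * al (l * n) ^ j * cb (r * m ^ 3) n := by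
    refine (Finset.sum_subset (fun n hn => mem_ball.2 ((mem_ball.1 hn).trans (min_le_left _ _)))
      fun n h1 h2 => by_contra fun a => h2 (mem_ball.2 (le_min (mem_ball.1 h1) ?_))).symm
    have b := hS _ (left_ne_zero_of_mul (left_ne_zero_of_mul a))
    exact (nm_le_of_dvd (dvd_mul_left _ _) b.1.ne_zero).trans b.2.2
  have key := ra_core (j := j) (r := r) (w := Real.exp s) (E := |C| * Real.exp (-(c * t ^ (θ / 2))))
    (T := Real.exp (1 / 8 * s)) (Ω := 6 * t) (x := min x (2 * B)) (fun b hb => (hS b hb).1) hD hV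
    hK.le hl hm (Real.exp_pos _) (by positivity) (Real.exp_pos _) (by positivity)
    (fun y hy => by
      have y2 : 2 ≤ y := by linarith [Real.add_one_le_exp s]
      have a : c * t ^ (θ / 2) ≤ c * Real.log y ^ θ := by
        rw [← s3]
        exact mul_le_mul_of_nonneg_left (Real.rpow_le_rpow (by linarith)
          ((Real.le_log_iff_exp_le (by linarith)).2 hy) hθ.le) hc.le
      refine (hC r y hr hr' y2 (hrL.trans (c5.trans (Real.exp_le_exp.2 a)))).trans ?_
      rw [mul_right_comm]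
      gcongr
      exact le_abs_self C)
    (fun n h1 h2 => by
      have a1 : Real.exp (t * (1 / 4)) ≤
          Real.exp (1 / 20 * t) * Real.exp ((pfs n).card * s) := by
        refine hB1.trans ((hS _ h1).2.1.le.trans ?_)
        rw [nm_mul, Real.exp_nat_mul]
        exact mul_le_mul (hlL.trans c4) h2 (nm_nonneg _) (Real.exp_pos _).le
      rw [← Real.exp_add, Real.exp_le_exp] at a1
      have a2 : s / 5 ≤ (pfs n).card :=
        le_of_mul_le_mul_right (by linarith only [a1, s2]) (one_pos.trans_le s1)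
      rw [← Real.exp_log two_pos, ← Real.exp_nat_mul, Real.exp_le_exp]
      linarith only [s1, mul_le_mul a2 l2.le (by norm_num) (Nat.cast_nonneg _)])
    (fun n h1 h2 => by
      have a1 := ra_two_pow (mul_ne_zero (hl.mul h1).ne_zero hm)
      have a2 : nm (l * n * m) ≤ Real.exp t * (Real.exp t * Real.exp t) * Real.exp t := by
        rw [nm_mul, nm_mul]
        have := nm_nonneg n
        have := nm_nonneg m
        gcongr
        · exact hlL.trans (c4.trans (Real.exp_le_exp.2 (by linarith)))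
        · exact h2.trans ((min_le_right _ _).trans (mul_le_mul e2 hB2 hB0.le hY0.le))
      have a3 := a1.trans a2
      rw [← Real.exp_log two_pos, ← Real.exp_nat_mul, ← Real.exp_add, ← Real.exp_add,
        ← Real.exp_add, Real.exp_le_exp] at a3
      have a4 := mul_le_mul_of_nonneg_left l2.le (Nat.cast_nonneg (pfs (l * n * m)).card)
      linarith only [a3, a4, t0])
  have h7 : ∑ n ∈ pball (min x (2 * B)), dn n ^ (k + 1) / nm n ≤ C₃ * (2 ^ D * P) := by
    refine le_trans (Finset.sum_le_sum_of_subset_of_nonneg (fun n hn => ?_) fun n _ _ =>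
      div_nonneg (pow_nonneg (dn_nonneg n) _) (nm_nonneg n)) (h5.trans (by gcongr))
    exact mem_pball.2 ⟨(mem_pball.1 hn).1.trans ((min_le_right _ _).trans (by linarith)),
      (mem_pball.1 hn).2⟩
  have h8 : dn l ^ k ≤ C₄ * L := (h4 l hl.ne_zero).trans (by rw [Real.rpow_one]; gcongr)
  have h9 : G * (L * L * P) * ((Real.exp (1 / 8 * s))⁻¹ +
      K * (4 * (|C| * Real.exp (-(c * t ^ (θ / 2)))) + 6 * t / Real.exp s)) ≤ 3 := by
    rw [← div_le_one (Real.exp_pos _), div_eq_mul_inv] at c1 c2 c3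
    rw [Real.exp_neg, div_eq_mul_inv (6 * t)]
    linarith only [c1, c2, c3]
  show ‖∑ n ∈ ball x, β (l * n) * al (l * n) ^ j * cb (r * m ^ 3) n‖ ≤ _
  rw [e0, le_div_iff₀ hL]
  have h10 := Finset.sum_nonneg fun n (_ : n ∈ pball (min x (2 * B))) =>
    div_nonneg (pow_nonneg (dn_nonneg n) (k + 1)) (nm_nonneg n)
  have d0 := dn_nonneg l
  have h11 := key.trans (mul_le_mul (mul_le_mul_of_nonneg_right ((mul_le_mul_of_nonneg_left
    (min_le_right x (2 * B)) (by positivity)).trans (mul_le_mul_of_nonneg_right h8 (by positivity)))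
    (by positivity)) h7 h10 (by positivity))
  have h12 := mul_le_mul_of_nonneg_left h9 (show 0 ≤ B / 3 by positivity)
  rw [hG] at h12
  linarith only [h12, mul_le_mul_of_nonneg_right h11 hL.le]

end Crest.Agent.R12
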